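import Vale.Agent.P042.LB.H522.Loc

set_option autoImplicit false

/-!
P042, lower bounds: from local weights to sets (rounding, product formula, assembly).
-/

namespace Vale.Agent.P042.LB.H397

open Finset

/-! ### Rounding -/

section Round

variable {V ι : Type*} [DecidableEq V]

/-- number of vertices minus number of edges, extended to real weights -/
def form (A : Finset V) (E : Finset ι) (s t : ι → V) (x : V → ℝ) : ℝ :=
  ∑ v ∈ A, x v - ∑ i ∈ E, x (s i) * x (t i)

theorem form_split (A : Finset V) (E : Finset ι) (s t : ι → V) (hst : ∀ i ∈ E, s i ≠ t i)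
    (x : V → ℝ) (v : V) :
    form A E s t x = x v * form A E s t (Function.update x v 1) +
      (1 - x v) * form A E s t (Function.update x v 0) := by
  unfold form
  have h1 : ∑ u ∈ A, x u = x v * ∑ u ∈ A, Function.update x v 1 u +
      (1 - x v) * ∑ u ∈ A, Function.update x v 0 u := by
    rw [mul_sum, mul_sum, ← sum_add_distrib]
    refine sum_congr rfl fun u _ => ?_
    by_cases h : u = v
    · subst h
      simp
    · rw [Function.update_of_ne h, Function.update_of_ne h]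
      ring
  have h2 : ∑ i ∈ E, x (s i) * x (t i) =
      x v * ∑ i ∈ E, (Function.update x v 1 (s i) * Function.update x v 1 (t i)) +
      (1 - x v) * ∑ i ∈ E, (Function.update x v 0 (s i) * Function.update x v 0 (t i)) := by
    rw [mul_sum, mul_sum, ← sum_add_distrib]
    refine sum_congr rfl fun i hi => ?_
    have h3 := hst i hi
    by_cases ha : s i = v
    · by_cases hb : t i = v
      · exact absurd (ha.trans hb.symm) h3
      · rw [Function.update_of_ne hb, Function.update_of_ne hb, ha, Function.update_self,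
          Function.update_self]
        ring
    · by_cases hb : t i = v
      · rw [Function.update_of_ne ha, Function.update_of_ne ha, hb, Function.update_self,
          Function.update_self]
        ring
      · rw [Function.update_of_ne ha, Function.update_of_ne ha, Function.update_of_ne hb,
          Function.update_of_ne hb]
        ring
  rw [h1, h2]
  ring

theorem round_aux (A : Finset V) (E : Finset ι) (s t : ι → V) (hst : ∀ i ∈ E, s i ≠ t i)
    (x : V → ℝ) (hx0 : ∀ v, 0 ≤ x v) (hx1 : ∀ v, x v ≤ 1) (U : Finset V) :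
    ∃ y : V → ℝ, (∀ v ∈ U, y v = 0 ∨ y v = 1) ∧ (∀ v, v ∉ U → y v = x v) ∧
      form A E s t x ≤ form A E s t y := by
  induction U using Finset.induction_on with
  | empty => exact ⟨x, by simp, by simp, le_rfl⟩
  | insert v U hv ih =>
    obtain ⟨y, hy1, hy2, hy3⟩ := ih
    have h := form_split A E s t hst y v
    have hyv : y v = x v := hy2 v hv
    have h0 : 0 ≤ y v := hyv ▸ hx0 v
    have h1 : y v ≤ 1 := hyv ▸ hx1 v
    have key : ∀ e : ℝ, (e = 0 ∨ e = 1) →
        form A E s t y ≤ form A E s t (Function.update y v e) →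
        ∃ y' : V → ℝ, (∀ u ∈ insert v U, y' u = 0 ∨ y' u = 1) ∧
          (∀ u, u ∉ insert v U → y' u = x u) ∧ form A E s t x ≤ form A E s t y' := by
      intro e he hle
      refine ⟨Function.update y v e, ?_, ?_, hy3.trans hle⟩
      · intro u hu
        by_cases huv : u = v
        · subst huv
          rw [Function.update_self]
          exact he
        · rw [Function.update_of_ne huv]
          exact hy1 u (mem_of_mem_insert_of_ne hu huv)
      · intro u hu
        rw [mem_insert, not_or] at hu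
        rw [Function.update_of_ne hu.1]
        exact hy2 u hu.2
    rcases le_total (form A E s t (Function.update y v 1))
      (form A E s t (Function.update y v 0)) with hle | hle
    · refine key 0 (Or.inl rfl) ?_
      rw [h]
      nlinarith
    · refine key 1 (Or.inr rfl) ?_
      rw [h]
      nlinarith

/-- **Rounding lemma**: a weighted graph has an independent set of size at least
(total weight) - (weight of the edges). -/
theorem round (A : Finset V) (E : Finset ι) (s t : ι → V) (hst : ∀ i ∈ E, s i ≠ t i)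
    (hsA : ∀ i ∈ E, s i ∈ A) (htA : ∀ i ∈ E, t i ∈ A)
    (x : V → ℝ) (hx0 : ∀ v, 0 ≤ x v) (hx1 : ∀ v, x v ≤ 1) :
    ∃ B ⊆ A, (∀ i ∈ E, ¬ (s i ∈ B ∧ t i ∈ B)) ∧ form A E s t x ≤ (B.card : ℝ) := by
  classical
  obtain ⟨y, hy1, -, hy3⟩ := round_aux A E s t hst x hx0 hx1 A
  set S := A.filter (fun v => y v = 1) with hS
  set F := E.filter (fun i => s i ∈ S ∧ t i ∈ S) with hF
  refine ⟨S \ F.image s, (sdiff_subset).trans (filter_subset _ _), ?_, hy3.trans ?_⟩
  · rintro i hi ⟨h1, h2⟩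
    rw [mem_sdiff] at h1 h2
    exact h1.2 (mem_image_of_mem s (mem_filter.2 ⟨hi, h1.1, h2.1⟩))
  · have e1 : ∑ v ∈ A, y v = (S.card : ℝ) := by
      rw [hS, card_filter, Nat.cast_sum]
      refine sum_congr rfl fun v hv => ?_
      rcases hy1 v hv with h | h
      · rw [h, if_neg (by norm_num)]
        norm_num
      · rw [h, if_pos rfl]
        norm_num
    have e2 : ∑ i ∈ E, y (s i) * y (t i) = (F.card : ℝ) := by
      rw [hF, card_filter, Nat.cast_sum]
      refine sum_congr rfl fun i hi => ?_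
      rcases hy1 _ (hsA i hi) with h | h
      · rw [if_neg (by simp [hS, h]), h]
        norm_num
      · rcases hy1 _ (htA i hi) with h' | h'
        · rw [if_neg (by simp [hS, h']), h']
          norm_num
        · rw [if_pos ⟨mem_filter.2 ⟨hsA i hi, h⟩, mem_filter.2 ⟨htA i hi, h'⟩⟩, h, h']
          norm_num
    have e3 : S.card ≤ (S \ F.image s).card + F.card := by
      have h1 := le_card_sdiff (F.image s) S
      have h2 := card_image_le (s := F) (f := s)
      omega
    have e4 : (S.card : ℝ) ≤ ((S \ F.image s).card : ℝ) + F.card := by exact_mod_cast e3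
    unfold form
    rw [e1, e2]
    linarith

end Round

/-! ### Sums of periodic functions -/

theorem per_mul (F : ℤ → ℝ) (a : ℕ) (hF : ∀ z, F (z + a) = F z) (z m : ℤ) :
    F (z + a * m) = F z := by
  have h : Function.Periodic F (a : ℤ) := hF
  have h1 := h.int_mul m z
  rwa [mul_comm] at h1

theorem per_mod (F : ℤ → ℝ) (a : ℕ) (hF : ∀ z, F (z + a) = F z) (z : ℕ) :
    F ((z % a : ℕ) : ℤ) = F z := by
  have h := per_mul F a hF ((z % a : ℕ) : ℤ) ((z / a : ℕ) : ℤ)
  rw [← h]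
  congr 1
  exact_mod_cast Nat.mod_add_div z a

theorem crt_sum (a b : ℕ) (hab : Nat.Coprime a b) (ha : 0 < a) (hb : 0 < b) (F G : ℤ → ℝ)
    (hF : ∀ z, F (z + a) = F z) (hG : ∀ z, G (z + b) = G z) :
    ∑ z ∈ range (a * b), F (z : ℤ) * G (z : ℤ) =
      (∑ z ∈ range a, F (z : ℤ)) * ∑ z ∈ range b, G (z : ℤ) := by
  rw [sum_mul_sum, ← sum_product']
  refine sum_nbij (fun z => (z % a, z % b)) ?_ ?_ ?_ ?_
  · intro z _
    rw [mem_product, mem_range, mem_range]
    exact ⟨Nat.mod_lt _ ha, Nat.mod_lt _ hb⟩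
  · intro z hz z' hz' h
    rw [mem_coe, mem_range] at hz hz'
    have h1 : z % a = z' % a := (Prod.ext_iff.1 h).1
    have h2 : z % b = z' % b := (Prod.ext_iff.1 h).2
    have h3 : z ≡ z' [MOD a * b] := (Nat.modEq_and_modEq_iff_modEq_mul hab).1 ⟨h1, h2⟩
    exact Nat.ModEq.eq_of_lt_of_lt h3 hz hz'
  · rintro ⟨x, y⟩ hxy
    rw [mem_coe, mem_product, mem_range, mem_range] at hxy
    obtain ⟨k, hk1, hk2⟩ := Nat.chineseRemainder hab x y
    refine ⟨k % (a * b), ?_, ?_⟩
    · rw [mem_coe, mem_range]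
      exact Nat.mod_lt _ (Nat.mul_pos ha hb)
    · have h1 : k % (a * b) % a = x := by
        rw [Nat.mod_mul_right_mod, hk1, Nat.mod_eq_of_lt hxy.1]
      have h2 : k % (a * b) % b = y := by
        rw [Nat.mod_mul_left_mod, hk2, Nat.mod_eq_of_lt hxy.2]
      exact Prod.ext h1 h2
  · intro z _
    simp only
    rw [per_mod F a hF z, per_mod G b hG z]

theorem prod_sum (P : Finset ℕ) (hP : ∀ p ∈ P, p.Prime) (w : ℕ → ℤ → ℝ)
    (hw : ∀ p ∈ P, ∀ z, w p (z + p) = w p z) :
    ∑ z ∈ range (∏ p ∈ P, p), ∏ p ∈ P, w p (z : ℤ) = ∏ p ∈ P, ∑ z ∈ range p, w p (z : ℤ) := by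
  classical
  induction P using Finset.induction_on with
  | empty => simp
  | insert p P hp ih =>
    have hP' : ∀ q ∈ P, q.Prime := fun q hq => hP q (mem_insert_of_mem hq)
    have hw' : ∀ q ∈ P, ∀ z, w q (z + q) = w q z := fun q hq => hw q (mem_insert_of_mem hq)
    have hpp : p.Prime := hP p (mem_insert_self _ _)
    rw [prod_insert hp, prod_insert hp, ← ih hP' hw']
    have hQ : 0 < ∏ q ∈ P, q := prod_pos fun q hq => (hP' q hq).pos
    have hcop : Nat.Coprime p (∏ q ∈ P, q) := by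
      refine Nat.Coprime.prod_right fun q hq => ?_
      exact (Nat.coprime_primes hpp (hP' q hq)).2 fun h => hp (h ▸ hq)
    rw [← crt_sum p (∏ q ∈ P, q) hcop hpp.pos hQ (w p) (fun z => ∏ q ∈ P, w q z)
      (hw p (mem_insert_self _ _)) ?_]
    · exact sum_congr rfl fun z _ => prod_insert hp
    · intro z
      refine prod_congr rfl fun q hq => ?_
      obtain ⟨m, hm⟩ := dvd_prod_of_mem (fun q : ℕ => q) hq
      have := per_mul (w q) q (hw' q hq) z (m : ℤ)
      rw [← this]
      congr 1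
      rw [hm]
      push_cast
      ring

theorem prod_sum2 (P : Finset ℕ) (hP : ∀ p ∈ P, p.Prime) (F : ℕ → ℤ → ℤ → ℝ)
    (h1 : ∀ p ∈ P, ∀ n z, F p (n + p) z = F p n z) (h2 : ∀ p ∈ P, ∀ n z, F p n (z + p) = F p n z) :
    ∑ n ∈ range (∏ p ∈ P, p), ∑ z ∈ range (∏ p ∈ P, p), ∏ p ∈ P, F p (n : ℤ) (z : ℤ) =
      ∏ p ∈ P, ∑ n ∈ range p, ∑ z ∈ range p, F p (n : ℤ) (z : ℤ) := by
  have e : ∀ n : ℕ, ∑ z ∈ range (∏ p ∈ P, p), ∏ p ∈ P, F p (n : ℤ) (z : ℤ) =
      ∏ p ∈ P, ∑ z ∈ range p, F p (n : ℤ) (z : ℤ) := fun n =>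
    prod_sum P hP (fun p z => F p n z) (fun p hp z => h2 p hp n z)
  rw [sum_congr rfl fun n _ => e n]
  exact prod_sum P hP (fun p n => ∑ z ∈ range p, F p n (z : ℤ))
    (fun p hp n => sum_congr rfl fun z _ => h1 p hp n z)

theorem sum_per (f : ℤ → ℝ) (q m : ℕ) (hf : ∀ z, f (z + q) = f z) :
    ∑ i ∈ range (m * q), f ((i : ℤ) + 1) = m * ∑ i ∈ range q, f (i : ℤ) := by
  have hs : ∑ i ∈ range q, f ((i : ℤ) + 1) = ∑ i ∈ range q, f (i : ℤ) := by
    have h1 := sum_range_succ (fun i : ℕ => f (i : ℤ)) q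
    have h2 := sum_range_succ' (fun i : ℕ => f (i : ℤ)) q
    have h3 : f ((q : ℕ) : ℤ) = f ((0 : ℕ) : ℤ) := by
      have := hf 0
      simpa using this
    simp only [Nat.cast_add, Nat.cast_one] at h2
    linarith
  induction m with
  | zero => simp
  | succ m ih =>
    rw [Nat.succ_mul, sum_range_add, ih, ← hs, Nat.cast_succ, add_mul, one_mul]
    congr 1
    refine sum_congr rfl fun i _ => ?_
    have := per_mul f q hf ((i : ℤ) + 1) m
    rw [← this]
    congr 1
    push_cast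
    ring

theorem sum_Icc_int (f : ℤ → ℝ) (N : ℕ) :
    ∑ z ∈ Icc (1 : ℤ) N, f z = ∑ i ∈ range N, f ((i : ℤ) + 1) := by
  symm
  refine sum_nbij (fun i : ℕ => (i : ℤ) + 1) ?_ ?_ ?_ ?_
  · intro i hi
    rw [mem_range] at hi
    rw [mem_Icc]
    omega
  · intro i _ j _ hij
    have : (i : ℤ) + 1 = j + 1 := hij
    omega
  · intro z hz
    rw [mem_coe, mem_Icc] at hz
    refine ⟨(z - 1).toNat, ?_, ?_⟩
    · rw [mem_coe, mem_range]
      omega
    · show (((z - 1).toNat : ℕ) : ℤ) + 1 = z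
      omega
  · intro i _
    rfl

theorem sum_Icc_le (f : ℤ → ℝ) (q N : ℕ) (hq : 0 < q) (hf : ∀ z, f (z + q) = f z)
    (h0 : ∀ z, 0 ≤ f z) :
    ∑ z ∈ Icc (1 : ℤ) N, f z ≤ ((N / q + 1 : ℕ) : ℝ) * ∑ i ∈ range q, f (i : ℤ) := by
  rw [sum_Icc_int, ← sum_per f q _ hf]
  refine sum_le_sum_of_subset_of_nonneg ?_ fun i _ _ => h0 _
  rw [range_subset_range]
  have := Nat.lt_div_mul_add hq (a := N)
  nlinarith

theorem le_sum_Icc (f : ℤ → ℝ) (q N : ℕ) (hf : ∀ z, f (z + q) = f z)
    (h0 : ∀ z, 0 ≤ f z) :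
    ((N / q : ℕ) : ℝ) * ∑ i ∈ range q, f (i : ℤ) ≤ ∑ z ∈ Icc (1 : ℤ) N, f z := by
  rw [sum_Icc_int, ← sum_per f q _ hf]
  refine sum_le_sum_of_subset_of_nonneg ?_ fun i _ _ => h0 _
  rw [range_subset_range]
  exact Nat.div_mul_le_self N q

/-! ### Assembly -/

open Polynomial

theorem card_le_rMax (h : ℤ[X]) (N : ℕ) (A : Finset ℤ) (hA : A ⊆ Icc (1 : ℤ) N)
    (hd : DiffFree h A) : A.card ≤ rMax h N := by
  classical
  unfold rMax
  refine le_sup (f := Finset.card) ?_
  rw [mem_filter, mem_powerset]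
  exact ⟨hA, hd⟩

theorem eval_per (h : ℤ[X]) (w : ℤ → ℝ) (p : ℕ) (hw : ∀ z, w (z + p) = w z) (z n : ℤ) :
    w (z + h.eval (n + p)) = w (z + h.eval n) := by
  obtain ⟨m, hm⟩ := h.sub_dvd_eval_sub (n + p) n
  have h1 : h.eval (n + p) = h.eval n + p * m := by
    have : (n + p) - n = (p : ℤ) := by ring
    rw [this] at hm
    linarith
  rw [h1, ← add_assoc]
  exact per_mul w p hw _ m

/-- The global weight: a product of local weights. -/
theorem global_weight (h : ℤ[X]) (δ : ℝ) (P : Finset ℕ)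
    (hP : ∀ p ∈ P, p.Prime) (hL : ∀ p ∈ P, LocW h p δ) :
    ∃ ω : ℤ → ℝ, (∀ z, 0 ≤ ω z) ∧ (∀ z, ω z ≤ (1 / 2) ^ P.card) ∧
      (∀ z, ω (z + (∏ p ∈ P, p : ℕ)) = ω z) ∧ ∑ z ∈ range (∏ p ∈ P, p), ω (z : ℤ) = 1 ∧
      ∑ n ∈ range (∏ p ∈ P, p), ∑ z ∈ range (∏ p ∈ P, p), ω (z : ℤ) * ω (z + h.eval (n : ℤ)) ≤
        (1 - δ) ^ P.card := by
  unfold LocW at hL
  choose! w hw0 hw1 hwp hws hwe using hL
  refine ⟨fun z => ∏ p ∈ P, w p z, fun z => prod_nonneg fun p hp => hw0 p hp z, fun z => ?_,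
    fun z => ?_, ?_, ?_⟩
  · exact (prod_le_prod (fun p hp => hw0 p hp z) fun p hp => hw1 p hp z).trans
      (by rw [prod_const])
  · refine prod_congr rfl fun q hq => ?_
    obtain ⟨m, hm⟩ := dvd_prod_of_mem (fun q : ℕ => q) hq
    have := per_mul (w q) q (hwp q hq) z (m : ℤ)
    rw [← this]
    congr 1
    rw [hm]
    push_cast
    ring
  · rw [prod_sum P hP w hwp, prod_congr rfl hws, prod_const_one]
  · have e : ∀ n z : ℕ, (∏ p ∈ P, w p (z : ℤ)) * ∏ p ∈ P, w p ((z : ℤ) + h.eval (n : ℤ)) =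
        ∏ p ∈ P, (fun (n z : ℤ) => w p z * w p (z + h.eval n)) (n : ℤ) (z : ℤ) := by
      intro n z
      rw [← prod_mul_distrib]
    rw [sum_congr rfl fun n _ => sum_congr rfl fun z _ => e n z]
    rw [prod_sum2 P hP (fun p (n z : ℤ) => w p z * w p (z + h.eval n)) ?_ ?_]
    · refine (prod_le_prod (fun p hp => ?_) hwe).trans (by rw [prod_const])
      exact sum_nonneg fun n _ => sum_nonneg fun z _ => mul_nonneg (hw0 p hp _) (hw0 p hp _)
    · intro p hp n z
      show w p z * w p (z + h.eval (n + p)) = w p z * w p (z + h.eval n)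
      rw [eval_per h (w p) p (hwp p hp)]
    · intro p hp n z
      show w p (z + p) * w p (z + p + h.eval n) = w p z * w p (z + h.eval n)
      rw [hwp p hp, show z + p + h.eval n = (z + h.eval n) + p by ring, hwp p hp]

/-- The combinatorial core: a global weight gives a set without differences in the values. -/
theorem core (h : ℤ[X]) (q r M N : ℕ) (δ : ℝ) (h0 : 0 < δ) (h1 : δ ≤ 1 / 2) (hq : 0 < q)
    (hqN : q ≤ N) (hM : 0 < M)
    (hbig : ∀ n : ℕ, 1 ≤ n → |h.eval (n : ℤ)| ≤ N → n ≤ M * q)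
    (ω : ℤ → ℝ) (ω0 : ∀ z, 0 ≤ ω z) (ω1 : ∀ z, ω z ≤ (1 / 2) ^ r)
    (ωp : ∀ z, ω (z + q) = ω z) (ωs : ∑ z ∈ range q, ω (z : ℤ) = 1)
    (ωe : ∑ n ∈ range q, ∑ z ∈ range q, ω (z : ℤ) * ω (z + h.eval (n : ℤ)) ≤ (1 - δ) ^ r) :
    (1 - δ)⁻¹ ^ r * N / (32 * (M * q)) ≤ (rMax h N : ℝ) := by
  classical
  have hδ : 0 < 1 - δ := by linarith
  have hδ2 : (1 - δ)⁻¹ ≤ 2 := by
    rw [inv_le_comm₀ hδ (by norm_num)]
    linarith
  have hMr : (0 : ℝ) < M := by exact_mod_cast hM
  have hM1 : (1 : ℝ) ≤ M := by exact_mod_cast hM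
  have hqr : (0 : ℝ) < q := by exact_mod_cast hq
  have hNr : (0 : ℝ) < N := lt_of_lt_of_le hqr (by exact_mod_cast hqN)
  set κ : ℝ := (1 - δ)⁻¹ ^ r / (8 * M) with hκ
  have hκ0 : 0 < κ := by positivity
  set E : Finset (ℕ × ℤ) := ((Icc 1 (M * q)) ×ˢ (Icc (1 : ℤ) N)).filter
    (fun i => h.eval (i.1 : ℤ) ≠ 0 ∧ i.2 + h.eval (i.1 : ℤ) ∈ Icc (1 : ℤ) N) with hE
  obtain ⟨B, hBA, hBE, hBc⟩ := round (Icc (1 : ℤ) N) E (fun i => i.2)
    (fun i => i.2 + h.eval (i.1 : ℤ)) (fun i hi => by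
      rw [hE, mem_filter] at hi
      intro hcon
      exact hi.2.1 (by simpa using hcon)) (fun i hi => by
      rw [hE, mem_filter, mem_product] at hi
      exact hi.1.2) (fun i hi => by
      rw [hE, mem_filter] at hi
      exact hi.2.2) (fun z => κ * ω z) (fun z => mul_nonneg hκ0.le (ω0 z)) (fun z => by
      have e1 : ω z ≤ (1 / 2) ^ r := ω1 z
      have e2 : κ ≤ 2 ^ r := by
        rw [hκ, div_le_iff₀ (by positivity)]
        have e3 : (1 - δ)⁻¹ ^ r ≤ 2 ^ r := pow_le_pow_left₀ (by positivity) hδ2 r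
        have e4 : (0 : ℝ) < 2 ^ r := by positivity
        nlinarith
      calc κ * ω z ≤ 2 ^ r * (1 / 2) ^ r := mul_le_mul e2 e1 (ω0 z) (by positivity)
        _ = 1 := by rw [← mul_pow]; norm_num)
  have hfree : DiffFree h B := by
    rintro d ⟨⟨y, hy, x, hx, hxy⟩, n, hn, hnd⟩
    rw [Set.mem_singleton_iff]
    by_contra hd
    have hd' : y - x = d := hxy
    have hyA := hBA hy
    have hxA := hBA hx
    have hyx : y = x + h.eval (n : ℤ) := by rw [hnd, ← hd']; ring
    rw [mem_Icc] at hyA hxA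
    refine hBE (n, x) ?_ ⟨hx, ?_⟩
    · rw [hE, mem_filter, mem_product]
      refine ⟨⟨?_, hBA hx⟩, ?_, ?_⟩
      · show n ∈ Icc 1 (M * q)
        rw [mem_Icc]
        refine ⟨hn, hbig n hn ?_⟩
        rw [hnd, abs_le]
        constructor <;> omega
      · show h.eval (n : ℤ) ≠ 0
        rw [hnd]
        exact hd
      · show x + h.eval (n : ℤ) ∈ Icc (1 : ℤ) N
        rw [← hyx]
        exact hBA hy
    · show x + h.eval (n : ℤ) ∈ B
      rw [← hyx]
      exact hy
  have hcard : (B.card : ℝ) ≤ rMax h N := by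
    exact_mod_cast card_le_rMax h N B hBA hfree
  refine le_trans ?_ hcard
  refine le_trans ?_ hBc
  unfold form
  -- vertices
  have hv : κ * (N / (2 * q)) ≤ ∑ v ∈ Icc (1 : ℤ) N, κ * ω v := by
    rw [← mul_sum]
    refine mul_le_mul_of_nonneg_left ?_ hκ0.le
    refine le_trans ?_ (le_sum_Icc ω q N ωp ω0)
    rw [ωs, mul_one, div_le_iff₀ (by positivity)]
    have e1 : N < N / q * q + q := Nat.lt_div_mul_add hq
    have e2 : 1 ≤ N / q := (Nat.one_le_div_iff hq).2 hqN
    have e3 : N ≤ (N / q) * (2 * q) := by nlinarith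
    exact_mod_cast e3
  -- edges
  have he : ∑ i ∈ E, (κ * ω i.2) * (κ * ω (i.2 + h.eval (i.1 : ℤ))) ≤
      κ ^ 2 * ((2 * N / q) * (M * (1 - δ) ^ r)) := by
    have e0 : ∀ n z : ℤ, 0 ≤ ω z * ω (z + h.eval n) := fun n z => mul_nonneg (ω0 _) (ω0 _)
    calc ∑ i ∈ E, (κ * ω i.2) * (κ * ω (i.2 + h.eval (i.1 : ℤ)))
        ≤ ∑ i ∈ (Icc 1 (M * q)) ×ˢ (Icc (1 : ℤ) N),
            (κ * ω i.2) * (κ * ω (i.2 + h.eval (i.1 : ℤ))) := by
          refine sum_le_sum_of_subset_of_nonneg (filter_subset _ _) fun i _ _ => ?_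
          exact mul_nonneg (mul_nonneg hκ0.le (ω0 _)) (mul_nonneg hκ0.le (ω0 _))
      _ = κ ^ 2 * ∑ n ∈ Icc 1 (M * q), ∑ z ∈ Icc (1 : ℤ) N, ω z * ω (z + h.eval (n : ℤ)) := by
          rw [sum_product, mul_sum]
          refine sum_congr rfl fun n _ => ?_
          rw [mul_sum]
          refine sum_congr rfl fun z _ => ?_
          ring
      _ ≤ κ ^ 2 * ((2 * N / q) * (M * (1 - δ) ^ r)) := by
          refine mul_le_mul_of_nonneg_left ?_ (by positivity)
          have e1 : ∀ n : ℕ, ∑ z ∈ Icc (1 : ℤ) N, ω z * ω (z + h.eval (n : ℤ)) ≤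
              (2 * N / q) * ∑ z ∈ range q, ω (z : ℤ) * ω (z + h.eval (n : ℤ)) := by
            intro n
            refine (sum_Icc_le (fun z => ω z * ω (z + h.eval (n : ℤ))) q N hq (fun z => ?_)
              (e0 n)).trans ?_
            · show ω (z + q) * ω (z + q + h.eval (n : ℤ)) = ω z * ω (z + h.eval (n : ℤ))
              rw [ωp, show z + q + h.eval (n : ℤ) = (z + h.eval (n : ℤ)) + q by ring, ωp]
            · refine mul_le_mul_of_nonneg_right ?_ (sum_nonneg fun z _ => e0 n z)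
              have e2 : ((N / q : ℕ) : ℝ) ≤ N / q := Nat.cast_div_le
              have e3 : (1 : ℝ) ≤ N / q := by
                rw [le_div_iff₀ hqr, one_mul]
                exact_mod_cast hqN
              push_cast
              rw [mul_div_assoc]
              linarith
          refine (sum_le_sum fun n _ => e1 n).trans ?_
          rw [← mul_sum]
          refine mul_le_mul_of_nonneg_left ?_ (by positivity)
          have e4 : ∑ n ∈ Icc 1 (M * q), ∑ z ∈ range q, ω (z : ℤ) * ω (z + h.eval (n : ℤ)) =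
              ∑ i ∈ range (M * q), (fun n : ℤ => ∑ z ∈ range q,
                ω (z : ℤ) * ω (z + h.eval n)) ((i : ℤ) + 1) := by
            symm
            refine sum_nbij (fun i => i + 1) ?_ ?_ ?_ ?_
            · intro i hi
              rw [mem_range] at hi
              rw [mem_Icc]
              omega
            · intro i _ j _ hij
              exact Nat.succ_injective hij
            · intro i hi
              rw [mem_coe, mem_Icc] at hi
              refine ⟨i - 1, ?_, ?_⟩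
              · rw [mem_coe, mem_range]
                omega
              · show i - 1 + 1 = i
                omega
            · intro i _
              push_cast
              rfl
          have e5 := sum_per (fun n : ℤ => ∑ z ∈ range q, ω (z : ℤ) * ω (z + h.eval n)) q M
            (fun n => sum_congr rfl fun z _ => by rw [eval_per h ω q ωp])
          rw [e4, e5]
          exact mul_le_mul_of_nonneg_left ωe hMr.le
  have hδr : (1 - δ) ^ r * (1 - δ)⁻¹ ^ r = 1 := by
    rw [← mul_pow, mul_inv_cancel₀ hδ.ne', one_pow]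
  have hfin : κ ^ 2 * ((2 * N / q) * (M * (1 - δ) ^ r)) = κ * (N / (4 * q)) := by
    rw [hκ]
    have : ((1 - δ)⁻¹ ^ r / (8 * M)) ^ 2 * ((2 * N / q) * (M * (1 - δ) ^ r)) =
        ((1 - δ)⁻¹ ^ r / (8 * M)) * ((1 - δ) ^ r * (1 - δ)⁻¹ ^ r) * (N / (4 * q)) := by
      field_simp
      ring
    rw [this, hδr, mul_one]
  have hgoal : (1 - δ)⁻¹ ^ r * N / (32 * (M * q)) = κ * (N / (2 * q)) - κ * (N / (4 * q)) := by
    rw [hκ]
    field_simp
    ring
  rw [hgoal, ← hfin]
  linarith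

end Vale.Agent.P042.LB.H397

namespace Vale.Agent.P042.LB

open Polynomial Finset H397

/-- Local weights at the primes of `P` give a large set without differences in `h(ℕ₊)`. -/
theorem assemble (h : ℤ[X]) (hk : 2 ≤ h.natDegree) (δ : ℝ) (h0 : 0 < δ) (h1 : δ ≤ 1 / 2) :
    ∃ c : ℝ, 0 < c ∧ ∀ P : Finset ℕ, (∀ p ∈ P, p.Prime) → (∀ p ∈ P, LocW h p δ) →
      ∀ N : ℕ, 1 ≤ N → (∏ p ∈ P, p) ^ h.natDegree ≤ N →
        c * (N : ℝ) ^ (1 - 1 / (h.natDegree : ℝ)) * (1 - δ)⁻¹ ^ P.card ≤ (rMax h N : ℝ) := by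
  obtain ⟨K, n0, hK, hsm⟩ := small_card h (by omega)
  refine ⟨1 / (32 * (n0 + K + 1)), by positivity, ?_⟩
  intro P hP hL N hN hqk
  obtain ⟨ω, ω0, ω1, ωp, ωs, ωe⟩ := global_weight h δ P hP hL
  set q := ∏ p ∈ P, p with hqdef
  set k := h.natDegree with hkdef
  have hq : 0 < q := prod_pos fun p hp => (hP p hp).pos
  have hqN : q ≤ N := (Nat.le_self_pow (by omega) q).trans hqk
  have hNr : (1 : ℝ) ≤ N := by exact_mod_cast hN
  have hN0 : (0 : ℝ) < N := by linarith
  have hqr : (0 : ℝ) < q := by exact_mod_cast hq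
  have hk0 : (0 : ℝ) < k := by
    have : 0 < k := by omega
    exact_mod_cast this
  set R : ℝ := (N : ℝ) ^ (1 / (k : ℝ)) with hR
  have hR1 : 1 ≤ R := Real.one_le_rpow hNr (by positivity)
  have hRk : R ^ k = N := by
    rw [hR, ← Real.rpow_natCast, ← Real.rpow_mul hN0.le, one_div, inv_mul_cancel₀ hk0.ne',
      Real.rpow_one]
  have hqR : (q : ℝ) ≤ R := by
    refine le_of_pow_le_pow_left₀ (n := k) (by omega) (by linarith) ?_
    rw [hRk]
    exact_mod_cast hqk
  set M := ⌈(n0 + K) * R / q⌉₊ with hM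
  have hK1 : (1 : ℝ) ≤ K := by exact_mod_cast hK
  have hn0 : (0 : ℝ) ≤ n0 := Nat.cast_nonneg n0
  have hpos : 0 < (n0 + K) * R / q := by positivity
  have hM0 : 0 < M := Nat.ceil_pos.2 hpos
  have hMq1 : (n0 + K) * R ≤ M * q := by
    have := Nat.le_ceil ((n0 + K) * R / q)
    rwa [div_le_iff₀ hqr] at this
  have hMq2 : M * q ≤ (n0 + K + 1) * R := by
    have := Nat.ceil_lt_add_one hpos.le
    have h2 : (M : ℝ) * q < ((n0 + K) * R / q + 1) * q := mul_lt_mul_of_pos_right this hqr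
    rw [add_mul, div_mul_cancel₀ _ hqr.ne', one_mul] at h2
    nlinarith
  have hbig : ∀ n : ℕ, 1 ≤ n → |h.eval (n : ℤ)| ≤ N → n ≤ M * q := by
    intro n hn hle
    suffices (n : ℝ) ≤ (n0 + K) * R by exact_mod_cast this.trans hMq1
    rcases le_or_gt n0 n with h2 | h2
    · have h3 := hsm n h2
      have h4 : (n : ℤ) ^ k ≤ K * N :=
        h3.trans (mul_le_mul_of_nonneg_left hle (by positivity))
      have h5 : (n : ℝ) ^ k ≤ K * N := by exact_mod_cast h4
      have h6 : (n : ℝ) ≤ K * R := by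
        refine le_of_pow_le_pow_left₀ (n := k) (by omega) (by positivity) ?_
        rw [mul_pow, hRk]
        refine h5.trans (mul_le_mul_of_nonneg_right ?_ hN0.le)
        exact le_self_pow₀ hK1 (by omega)
      nlinarith
    · have h3 : (n : ℝ) ≤ n0 := by exact_mod_cast h2.le
      nlinarith
  have hcore := core h q P.card M N δ h0 h1 hq hqN hM0 hbig ω ω0 ω1 ωp ωs ωe
  refine le_trans ?_ hcore
  have hpow : (N : ℝ) ^ (1 - 1 / (k : ℝ)) = N / R := by
    rw [Real.rpow_sub hN0, Real.rpow_one]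
  have hδ : 0 < 1 - δ := by linarith
  rw [hpow, le_div_iff₀ (by positivity)]
  have h9 : 1 / (32 * ((n0 : ℝ) + K + 1)) * (N / R) * (1 - δ)⁻¹ ^ P.card * (32 * (M * q)) =
      ((1 - δ)⁻¹ ^ P.card * N) * ((M * q) / ((n0 + K + 1) * R)) := by
    field_simp
  rw [h9]
  refine mul_le_of_le_one_right (by positivity) ?_
  rw [div_le_one (by positivity)]
  exact hMq2

end Vale.Agent.P042.LB
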